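import Vale.Agent.P207.N3.H747.Jac
import Vale.Agent.P207.N3.H248.UMan4
import Vale.Agent.P207.N3.Geo.MDat

/-!
# P207, N3: the input of the uniform unstable manifold theorem for a closed 3-manifold

`usys D h : USys (Fr g) E2`: the frame flow, the unstable Riccati solution `D.U`, the curvature
`RR g`, and the right side `ff g` of the geodesic equation in Fermi coordinates. `slope`: the slope
function. (helper747)
-/

open scoped Manifold ContDiff ENNReal Topology Matrix
open Bundle MeasureTheory Set Filter Topology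

noncomputable section

set_option maxSynthPendingDepth 3
set_option linter.unusedSectionVars false

namespace Vale.Agent.P207.N3.H747

open Vale.Agent.P255 (RMetric)
open Vale.Agent.P207.Q Vale.Agent.P207.Q.Fl
open Vale.Agent.P207.Q.H130 (IsUR Km Km_symm)
open Vale.Agent.P207.Q.H545 (Rf)
open Vale.Agent.P207.N3.H76 (pk tl)

/-- matrices as continuous linear maps of the plane -/
def mC : Matrix (Fin 2) (Fin 2) ℝ →ₗ[ℝ] E2 →L[ℝ] E2 :=
  (Matrix.toEuclideanCLM (n := Fin 2) (𝕜 := ℝ)).toAlgEquiv.toLinearMap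

theorem mC_eq (A : Matrix (Fin 2) (Fin 2) ℝ) :
    mC A = Matrix.toEuclideanCLM (n := Fin 2) (𝕜 := ℝ) A := rfl

theorem mC_apply (A : Matrix (Fin 2) (Fin 2) ℝ) (v : E2) (i : Fin 2) :
    mC A v i = ∑ j, A i j * v j := by
  rw [mC_eq, Matrix.ofLp_toEuclideanCLM]
  rfl

theorem mC_mul (A B : Matrix (Fin 2) (Fin 2) ℝ) : mC (A * B) = (mC A).comp (mC B) := by
  rw [mC_eq, map_mul]
  rfl

/-- `mC` as a continuous linear map -/
def mCL : Matrix (Fin 2) (Fin 2) ℝ →L[ℝ] E2 →L[ℝ] E2 := LinearMap.toContinuousLinearMap mC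

theorem mCL_apply (A : Matrix (Fin 2) (Fin 2) ℝ) : mCL A = mC A := rfl

theorem inner_mC (A : Matrix (Fin 2) (Fin 2) ℝ) (v w : E2) :
    inner ℝ (mC A v) w = ∑ i, ∑ j, A i j * v j * w i := by
  rw [EuclideanSpace.inner_eq_star_dotProduct]
  simp only [dotProduct, star_trivial, mC_apply, Finset.mul_sum, Pi.star_apply]
  refine Finset.sum_congr rfl fun i _ => Finset.sum_congr rfl fun j _ => by ring

theorem mC_symm {A : Matrix (Fin 2) (Fin 2) ℝ} (h : Aᵀ = A) (v w : E2) :
    inner ℝ (mC A v) w = inner ℝ v (mC A w) := by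
  rw [real_inner_comm (mC A w) v, inner_mC, inner_mC, Finset.sum_comm]
  refine Finset.sum_congr rfl fun i _ => Finset.sum_congr rfl fun j _ => ?_
  have h1 : A j i = A i j := congrFun (congrFun h i) j
  rw [h1]
  ring

variable {M : Type} [TopologicalSpace M] [ChartedSpace (EV 3) M] [IsManifold 𝓘(ℝ, EV 3) ∞ M]
  {g : RMetric (EV 3) M}

/-- `RR` is minus the curvature matrix of the library -/
theorem RR_eq (x : Fr g) : RR g x = - mC (Km g x) := by
  ext v j
  have h1 : ∀ i, Km g x j i = Km g x i j := fun i => congrFun (congrFun (Km_symm x) i) j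
  rw [RR_apply]
  change _ = - (mC (Km g x) v) j
  rw [mC_apply, ← Finset.sum_neg_distrib]
  refine Finset.sum_congr rfl fun i _ => ?_
  rw [h1]
  change v i * Rf g x i.succ 0 0 j.succ = -(-Rf g x i.succ 0 0 j.succ * v i)
  ring

variable [CompactSpace M] [T2Space M]

theorem continuous_RR : Continuous (RR g) := by
  have h1 : RR g = fun x => - mCL (Km g x) := by
    funext x
    rw [RR_eq, mCL_apply]
  rw [h1]
  exact (mCL.continuous.comp continuous_Km).neg

variable [Nonempty (Fr g)]

/-- the unstable Riccati solution as an operator -/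
def UC (D : MDat g (fl g)) (x : Fr g) : E2 →L[ℝ] E2 := mC (D.U x)

theorem continuous_UC (D : MDat g (fl g)) : Continuous (UC D) := mCL.continuous.comp D.cont

theorem UC_symm (D : MDat g (fl g)) (x : Fr g) (v w : E2) :
    inner ℝ (UC D x v) w = inner ℝ v (UC D x w) :=
  mC_symm (D.ur.symm isHorFlow_fl x) v w

theorem UC_pos (D : MDat g (fl g)) (x : Fr g) (v : E2) :
    D.lam * ‖v‖ ^ 2 ≤ inner ℝ (UC D x v) v := by
  have h1 := D.ur.lo x v
  have h2 : ‖v‖ ^ 2 = v.ofLp ⬝ᵥ v.ofLp := by
    rw [EuclideanSpace.norm_sq_eq]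
    simp [dotProduct, sq]
  have h3 : inner ℝ (UC D x v) v = v.ofLp ⬝ᵥ (D.U x *ᵥ v.ofLp) := by
    rw [UC, inner_mC]
    simp only [dotProduct, Matrix.mulVec, Finset.mul_sum]
    refine Finset.sum_congr rfl fun i _ => Finset.sum_congr rfl fun j _ => by ring
  rw [h2, h3]
  exact h1

theorem exists_UC_bound (D : MDat g (fl g)) : ∃ L, 0 < L ∧ D.lam ≤ L ∧ ∀ x, ‖UC D x‖ ≤ L := by
  have h1 := isCompact_univ (X := Fr g) |>.exists_bound_of_continuousOn (f := UC D)
    (continuous_UC D).continuousOn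
  obtain ⟨C, hC⟩ := h1
  have h2 : 0 < D.lam := D.ur.pos
  exact ⟨max C D.lam, lt_max_of_lt_right h2, le_max_right _ _,
    fun x => (hC x (mem_univ x)).trans (le_max_left _ _)⟩

theorem mC_sum (A : Matrix (Fin 2) (Fin 2) ℝ) :
    mC A = ∑ i, ∑ j, A i j • mC (Matrix.single i j 1) := by
  conv_lhs => rw [Matrix.matrix_eq_sum_single A]
  rw [map_sum]
  refine Finset.sum_congr rfl fun i _ => ?_
  rw [map_sum]
  refine Finset.sum_congr rfl fun j _ => ?_
  rw [← map_smul, Matrix.smul_single, smul_eq_mul, mul_one]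

/-- matrix-valued curves, entry by entry -/
theorem hasDerivAt_mC {A : ℝ → Matrix (Fin 2) (Fin 2) ℝ} {A' : Matrix (Fin 2) (Fin 2) ℝ} {t : ℝ}
    (h : ∀ i j, HasDerivAt (fun s => A s i j) (A' i j) t) :
    HasDerivAt (fun s => mC (A s)) (mC A') t := by
  have h1 : (fun s => mC (A s)) = fun s => ∑ i, ∑ j, A s i j • mC (Matrix.single i j 1) := by
    funext s
    exact mC_sum _
  rw [h1, mC_sum A']
  exact HasDerivAt.fun_sum fun i _ => HasDerivAt.fun_sum fun j _ =>
    (h i j).smul_const (mC (Matrix.single i j 1))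

theorem UC_riccati (D : MDat g (fl g)) (x : Fr g) (t : ℝ) :
    HasDerivAt (fun t => UC D (fl g t x))
      (-(UC D (fl g t x) ∘L UC D (fl g t x)) - RR g (fl g t x)) t := by
  have h2 : HasDerivAt (fun t => mC (D.U (fl g t x)))
      (mC (Km g (fl g t x) - D.U (fl g t x) * D.U (fl g t x))) t :=
    hasDerivAt_mC fun i j => D.ur.ric x t i j
  refine h2.congr_deriv ?_
  rw [map_sub, mC_mul, RR_eq]
  unfold UC
  abel

/-- **the input of the uniform unstable manifold theorem** -/
def usys (D : MDat g (fl g)) {ρ : ℝ} (h : TubeR g ρ) : H248.USys (Fr g) E2 where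
  φ := fl g
  φ_zero := fl_zero
  φ_cont := continuous_fl
  U := UC D
  R := RR g
  U_cont := continuous_UC D
  R_cont := continuous_RR
  χ := D.lam
  Λ := (exists_UC_bound D).choose
  χ_pos := D.ur.pos
  Λ_pos := (exists_UC_bound D).choose_spec.1
  U_le x := H248.norm_id_sub_le (UC_symm D x) (UC_pos D x) ((exists_UC_bound D).choose_spec.2.2 x)
    (exists_UC_bound D).choose_spec.2.1
  riccati x t := UC_riccati D x t
  f := ff g
  ρ := ρ
  ρ_pos := h.1
  f_smooth x := by
    refine ((jc_ff h).smooth x).mono fun p hp => ?_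
    have h1 : ‖p‖ < ρ := by simpa using hp
    exact (norm_fst_le p).trans_lt h1
  f_cont k := by
    refine ((jc_ff h).cont k).mono fun q hq => ?_
    have h1 : ‖q.2‖ < ρ := by simpa using hq.2
    exact (norm_fst_le q.2).trans_lt h1
  f_zero x := ff_zero h x
  f_deriv x a b := fderiv_ff h x a b

/-- **existence of the slope function** -/
theorem exists_slope_fr (D : MDat g (fl g)) {ρ : ℝ} (h : TubeR g ρ) :
    ∃ (ε δ : ℝ) (s : Fr g → E2 → E2), (usys D h).Slope ε δ s :=
  (usys D h).exists_slope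

theorem fl_eq_horFlows : (horFlows g).Φ 0 = fl g := rfl

end Vale.Agent.P207.N3.H747
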