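import Vale.Agent.P207.N3.H747.Plot
import Vale.Agent.P207.H248.VarF
import Vale.Agent.P207.Q.H545.Step5
import Vale.Agent.P207.Q.H916.FlipFr

/-!
# P207, N3: Fermi coordinates along the orbits of the frame flow, n = 3

`Lf (x, z)`: the frame obtained from `x` by the frame flow for the time `z 0`, then by the horizontal
flow of direction `(0, z 1, z 2)` for the time one. `Fc a (x, z)`: its foot point in the chart at
`a`. Everything is smooth along plots; the derivative on the axis is the frame. (helper747)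
-/

open scoped Manifold ContDiff ENNReal Topology
open Bundle MeasureTheory Set Filter Topology

noncomputable section

set_option maxSynthPendingDepth 3
set_option linter.unusedSectionVars false

namespace Vale.Agent.P207.N3.H747

open Vale.Agent.P255 (RMetric coefIn Gam Riem IsGeo Metric Npc ExpSys toMetric geo expg cc trans
  IsGeodesic coefL chris chrisB IsMetricOn covD)
open Vale.Agent.P207.Q Vale.Agent.P207.Q.Fl

section General

variable {n : ℕ} {M : Type} [TopologicalSpace M] [ChartedSpace (EV n) M]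
  [IsManifold 𝓘(ℝ, EV n) ∞ M] {g : RMetric (EV n) M} [Nonempty (Fr g)] [NeZero n]
  [CompactSpace M] [T2Space M]

theorem hF_smul {G : EV n → EV n →L[ℝ] EV n →L[ℝ] ℝ} (c : ℝ) (ξ : Fin n → ℝ)
    (y : St (Fin n) n) : hF G (c • ξ) y = c • hF G ξ y := by
  have h1 : ∑ i, (c • ξ) i • y.2 i = c • ∑ i, ξ i • y.2 i := by
    simp only [Pi.smul_apply, smul_assoc, Finset.smul_sum]
  refine Prod.ext h1 ?_
  funext j
  change - chris G y.1 (∑ i, (c • ξ) i • y.2 i) (y.2 j) = c • - chris G y.1 (∑ i, ξ i • y.2 i) (y.2 j)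
  rw [h1]
  simp only [← P255.chrisB_apply, map_smul, smul_apply, smul_neg]

/-- change of the time scale of a horizontal flow -/
theorem flow_smul (c : ℝ) (ξ : Fin n → ℝ) (t : ℝ) (x : Fr g) :
    CSys.flow (horVF g (c • ξ)) t x = CSys.flow (horVF g ξ) (c * t) x := by
  have h0 := isHorFlow_flow g ξ
  have h1 : IsHorFlow g (c • ξ) (fun t => CSys.flow (horVF g ξ) (c * t)) := by
    intro f
    refine ⟨by simp only [mul_zero]; exact (h0 f).1, ⟨fun t _ => ?_, fun a t _ ha => ?_⟩⟩
    · exact ContinuousAt.comp (g := fun t => (CSys.flow (horVF g ξ) t f).1) (f := fun t => c * t)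
        ((h0 f).2.cont _ (mem_univ _)) (by fun_prop)
    · have h1 := (h0 f).2.eqn a (c * t) (mem_univ _) ha
      rw [hF_smul]
      have h3 : HasDerivAt (fun t : ℝ => c * t) c t := by
        simpa using (hasDerivAt_id t).const_mul c
      exact HasDerivAt.scomp (h := fun t : ℝ => c * t) t h1 h3
  have h2 := h1.unique (isHorFlow_flow g (c • ξ))
  exact (congrFun (congrFun h2 t) x).symm

theorem flow_zero_dir (t : ℝ) (x : Fr g) : CSys.flow (horVF g (0 : Fin n → ℝ)) t x = x := by
  have h := flow_smul (g := g) 0 (0 : Fin n → ℝ) t x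
  rw [smul_zero, zero_mul, CSys.flow_zero] at h
  exact h

end General

variable {M : Type} [TopologicalSpace M] [ChartedSpace (EV 3) M] [IsManifold 𝓘(ℝ, EV 3) ∞ M]
  (g : RMetric (EV 3) M) [Nonempty (Fr g)] [CompactSpace M] [T2Space M]

/-- the direction `(0, z 1, z 2)` -/
def dir (z : EV 3) : Fin 3 → ℝ := ![0, z 1, z 2]

/-- the frame flow -/
def fl (s : ℝ) (x : Fr g) : Fr g := CSys.flow (horVF g (Pi.single 0 1)) s x

/-- the Fermi map, with frames -/
def Lf (q : Fr g × EV 3) : Fr g := CSys.flow (horVF g (dir q.2)) 1 (fl g (q.2 0) q.1)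

/-- the Fermi map -/
def Fp (q : Fr g × EV 3) : M := (Lf g q).pt

/-- the Fermi map with frames in the chart at `a` -/
def Lc (a : M) (q : Fr g × EV 3) : St (Fin 3) 3 := chF a (Lf g q).1

/-- the Fermi map in the chart at `a` -/
def Fc (a : M) (q : Fr g × EV 3) : EV 3 := (Lc g a q).1

variable {g}

theorem fl_zero (x : Fr g) : fl g 0 x = x := CSys.flow_zero _ x

theorem fl_add (s t : ℝ) (x : Fr g) : fl g (s + t) x = fl g s (fl g t x) :=
  (CSys.flow_flow (horVF g (Pi.single 0 1)) s t x).symm

theorem continuous_fl : Continuous (fun q : ℝ × Fr g => fl g q.1 q.2) :=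
  CSys.continuous_flow (horVF g (Pi.single 0 1))

theorem isHorFlow_fl : IsHorFlow g (Pi.single 0 1) (fl g) := isHorFlow_flow g _

theorem plot_fl {V : Type} [NormedAddCommGroup V] [NormedSpace ℝ V] [FiniteDimensional ℝ V]
    {u : V → Fr g} {s : V → ℝ} {v : V} (hu : (frSys g).dif.At u v) (hs : Sm s v) :
    (frSys g).dif.At (fun w => fl g (s w) (u w)) v :=
  H248.hor_plot g hu (Sm.const _ v) hs

theorem contDiff_coord (i : Fin 3) : ContDiff ℝ ∞ (fun z : EV 3 => z i) :=
  (EuclideanSpace.proj (𝕜 := ℝ) i).contDiff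

theorem contDiff_dir : ContDiff ℝ ∞ dir := by
  refine contDiff_pi.2 fun i => ?_
  fin_cases i
  · exact contDiff_const
  · exact contDiff_coord 1
  · exact contDiff_coord 2

theorem plot_Lf {V : Type} [NormedAddCommGroup V] [NormedSpace ℝ V] [FiniteDimensional ℝ V]
    {u : V → Fr g × EV 3} {v : V} (hu : PAt u v) : (frSys g).dif.At (fun w => Lf g (u w)) v := by
  have h2 : Sm (fun w => (u w).2) v := hu.2
  have h3 : Sm (fun w => (u w).2 0) v :=
    Sm.comp' (f := fun z : EV 3 => z 0) (Sm.of_contDiff (contDiff_coord 0) _) h2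
  have h4 : Sm (fun w => dir (u w).2) v := Sm.comp' (f := dir) (Sm.of_contDiff contDiff_dir _) h2
  exact H248.hor_plot g (plot_fl hu.1 h3) h4 (Sm.const 1 v)

theorem continuous_Lf : Continuous (Lf g) := by
  -- continuity from the retraction plots
  rw [continuous_iff_continuousAt]
  rintro ⟨x, z⟩
  have hf : x.pt ∈ (chartAt (EV 3) x.pt).source := mem_chart_source _ _
  have h1 : PAt (fun q : St (Fin 3) 3 × EV 3 => (retr g x.pt q.1, q.2)) (chF x.pt x.1, z) := by
    refine ⟨?_, Sm.of_contDiff contDiff_snd _⟩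
    exact (frSys g).dif.comp (u := retr g x.pt) (g := Prod.fst)
      (x := ((chF x.pt x.1, z) : St (Fin 3) 3 × EV 3))
      (at_retr x.pt (mem_gsDom_chF x.pt x hf)) (Sm.of_contDiff contDiff_fst _)
  have h2 : ContinuousAt (fun q : St (Fin 3) 3 × EV 3 => Lf g (retr g x.pt q.1, q.2))
      (chF x.pt x.1, z) := (frSys g).at_cont (plot_Lf h1)
  have h3 : ContinuousAt (fun q : Fr g × EV 3 => ((chF x.pt q.1.1, q.2) : St (Fin 3) 3 × EV 3))
      (x, z) := by
    refine ContinuousAt.prodMk ?_ continuousAt_snd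
    exact ContinuousAt.comp (g := fun q : Fr g => chF x.pt q.1) (f := Prod.fst)
      ((continuousAt_chF x.pt (f := x.1) hf).comp Fr.continuous_val.continuousAt) continuousAt_fst
  have h4 : ContinuousAt (fun q : Fr g × EV 3 => Lf g (retr g x.pt (chF x.pt q.1.1), q.2)) (x, z) :=
    ContinuousAt.comp (g := fun q : St (Fin 3) 3 × EV 3 => Lf g (retr g x.pt q.1, q.2))
      (f := fun q : Fr g × EV 3 => ((chF x.pt q.1.1, q.2) : St (Fin 3) 3 × EV 3)) h2 h3
  refine h4.congr ?_
  have h5 : ∀ᶠ q : Fr g × EV 3 in 𝓝 (x, z), retr g x.pt (chF x.pt q.1.1) = q.1 :=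
    (continuousAt_fst (p := ((x, z) : Fr g × EV 3))).eventually (eventually_retr x)
  filter_upwards [h5] with q hq
  rw [hq]

/-- the points where the chart at `a` can be used -/
def src (g : RMetric (EV 3) M) [Nonempty (Fr g)] (a : M) : Set (Fr g × EV 3) :=
  {q | Fp g q ∈ (chartAt (EV 3) a).source}

theorem isOpen_src (a : M) : IsOpen (src g a) :=
  (chartAt (EV 3) a).open_source.preimage (Fr.continuous_pt.comp continuous_Lf)

theorem mem_src_self (q : Fr g × EV 3) : q ∈ src g (Fp g q) := mem_chart_source _ _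

theorem psm_Lc {a : M} {p : Fr g × EV 3} (hp : p ∈ src g a) : PSm (Lc g a) p := by
  intro V _ _ _ u v huv hu
  have h1 := plot_Lf hu
  have h2 : ∀ᶠ w in 𝓝 v, u w ∈ src g a := by
    have : Tendsto u (𝓝 v) (𝓝 p) := huv ▸ hu.continuousAt
    exact this.eventually ((isOpen_src a).mem_nhds hp)
  filter_upwards [h1, h2] with w h3 h4
  exact h3.2 a h4

theorem psm_Fc {a : M} {p : Fr g × EV 3} (hp : p ∈ src g a) : PSm (Fc g a) p := (psm_Lc hp).fst

theorem Fc_eq (a : M) (q : Fr g × EV 3) : Fc g a q = chartAt (EV 3) a (Fp g q) := rfl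

/-- translation along the axis -/
theorem Lf_shift (x : Fr g) (z : EV 3) (s : ℝ) :
    Lf g (x, z + EuclideanSpace.single 0 s) = Lf g (fl g s x, z) := by
  unfold Lf
  have h1 : dir (z + EuclideanSpace.single 0 s) = dir z := by
    unfold dir
    simp
  simp only [h1]
  rw [← fl_add]
  simp

theorem Lf_axis (x : Fr g) (s : ℝ) : Lf g (x, EuclideanSpace.single 0 s) = fl g s x := by
  unfold Lf
  have h1 : dir (EuclideanSpace.single 0 s) = 0 := by
    unfold dir
    ext i
    fin_cases i <;> simp
  simp only [h1, flow_zero_dir]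
  simp

theorem Lf_zero (x : Fr g) : Lf g (x, 0) = x := by
  have h := Lf_axis x 0
  rwa [show (EuclideanSpace.single 0 0 : EV 3) = 0 by simp, fl_zero] at h

/-- the derivative of the Fermi map in the chart at `a` -/
def DF (g : RMetric (EV 3) M) [Nonempty (Fr g)] (a : M)
    (q : Fr g × EV 3) : EV 3 →L[ℝ] EV 3 :=
  fderiv ℝ (fun z => Fc g a (q.1, z)) q.2

theorem psm_DF {a : M} {p : Fr g × EV 3} (hp : p ∈ src g a) : PSm (DF g a) p := (psm_Fc hp).fderiv

theorem sm_Fc {a : M} {x : Fr g} {z : EV 3} (hp : (x, z) ∈ src g a) :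
    Sm (fun z => Fc g a (x, z)) z := (psm_Fc hp).slice

theorem hasFDerivAt_Fc {a : M} {x : Fr g} {z : EV 3} (hp : (x, z) ∈ src g a) :
    HasFDerivAt (fun z => Fc g a (x, z)) (DF g a (x, z)) z :=
  (sm_Fc hp).differentiableAt.hasFDerivAt

/-- translation along the axis of the derivative -/
theorem DF_shift (a : M) (x : Fr g) (z : EV 3) (s : ℝ) :
    DF g a (x, z + EuclideanSpace.single 0 s) = DF g a (fl g s x, z) := by
  unfold DF
  have h1 : (fun w => Fc g a (fl g s x, w)) =
      fun w => Fc g a (x, w + EuclideanSpace.single 0 s) := by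
    funext w
    unfold Fc Lc
    rw [Lf_shift]
  simp only [h1]
  rw [fderiv_comp_add_right (f := fun w => Fc g a (x, w))]

/-- **the derivative at the origin is the frame** -/
theorem DF_zero {a : M} {x : Fr g} (ha : x.pt ∈ (chartAt (EV 3) a).source) (v : EV 3) :
    DF g a (x, 0) v = ∑ i, v i • (chF a x.1).2 i := by
  have hp : ((x, 0) : Fr g × EV 3) ∈ src g a := by
    have h1 : Fp g (x, 0) = x.pt := by rw [Fp, Lf_zero]
    simp only [src, mem_ofPred_eq, h1]
    exact ha
  have hD := hasFDerivAt_Fc hp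
  -- the direction of the axis
  have h0 : DF g a (x, 0) (EuclideanSpace.single 0 (1 : ℝ)) = (chF a x.1).2 0 := by
    have h1 : HasDerivAt (fun s : ℝ => EuclideanSpace.single (0 : Fin 3) s)
        (EuclideanSpace.single (0 : Fin 3) (1 : ℝ)) 0 := by
      have h2 : (fun s : ℝ => EuclideanSpace.single (0 : Fin 3) s) =
          fun s : ℝ => s • EuclideanSpace.single (0 : Fin 3) (1 : ℝ) := by
        funext s
        ext i
        simp [PiLp.single_apply]
      rw [h2]
      simpa using (hasDerivAt_id (0 : ℝ)).smul_const (EuclideanSpace.single (0 : Fin 3) (1 : ℝ))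
    have h3 : HasDerivAt (fun s : ℝ => Fc g a (x, EuclideanSpace.single (0 : Fin 3) s))
        (DF g a (x, 0) (EuclideanSpace.single 0 (1 : ℝ))) 0 := by
      refine HasFDerivAt.comp_hasDerivAt_of_eq (l := fun z => Fc g a (x, z)) 0 hD h1 ?_
      ext i
      simp
    have h4 : (fun s : ℝ => Fc g a (x, EuclideanSpace.single (0 : Fin 3) s)) =
        fun s => (chF a (fl g s x).1).1 := by
      funext s
      unfold Fc Lc
      rw [Lf_axis]
    rw [h4] at h3
    have h5 := ((isHorFlow_fl (g := g)).eqn x (a := a) (t := 0) (by rw [fl_zero]; exact ha)).fst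
    rw [fl_zero] at h5
    have h6 := h3.unique h5
    rw [h6]
    simp [hF, Pi.single_apply]
  -- the orthogonal directions
  have h1 : ∀ w : EV 3, w 0 = 0 → DF g a (x, 0) w = ∑ i, w i • (chF a x.1).2 i := by
    intro w hw
    have h2 : HasDerivAt (fun t : ℝ => t • w) w 0 := by
      simpa using (hasDerivAt_id (0 : ℝ)).smul_const w
    have h3 : HasDerivAt (fun t : ℝ => Fc g a (x, t • w)) (DF g a (x, 0) w) 0 := by
      refine HasFDerivAt.comp_hasDerivAt_of_eq (l := fun z => Fc g a (x, z)) 0 hD h2 ?_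
      simp
    have h4 : (fun t : ℝ => Fc g a (x, t • w)) =
        fun t => (chF a (CSys.flow (horVF g (dir w)) t x).1).1 := by
      funext t
      unfold Fc Lc Lf
      have h5 : dir (t • w) = t • dir w := by
        unfold dir
        ext i
        fin_cases i <;> simp
      have h6 : (t • w) 0 = 0 := by simp [hw]
      simp only [h5, flow_smul, mul_one, h6, fl_zero]
    rw [h4] at h3
    have h5 := ((isHorFlow_flow g (dir w)).eqn x (a := a) (t := 0)
      (by rw [CSys.flow_zero]; exact ha)).fst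
    rw [CSys.flow_zero] at h5
    have h6 := h3.unique h5
    rw [h6]
    change ∑ i, dir w i • (chF a x.1).2 i = _
    refine Finset.sum_congr rfl fun i _ => ?_
    congr 1
    fin_cases i
    · simp [dir, hw]
    · rfl
    · rfl
  have h2 : v = EuclideanSpace.single 0 (v 0) + (v - EuclideanSpace.single 0 (v 0)) := by abel
  have h3 : (v - EuclideanSpace.single (0 : Fin 3) (v 0) : EV 3) 0 = 0 := by simp
  have h4 := h1 _ h3
  have h5 : EuclideanSpace.single 0 (v 0) = v 0 • EuclideanSpace.single (0 : Fin 3) (1 : ℝ) := by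
    ext i
    simp [PiLp.single_apply]
  rw [h2, map_add, h4]
  conv_lhs => rw [h5, map_smul, h0]
  simp [Fin.sum_univ_three, PiLp.single_apply, add_assoc]

end Vale.Agent.P207.N3.H747
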