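import Vale.Agent.P207.H248.HorP
import Vale.Agent.P207.N3.H862.JC

/-!
# P207, N3: functions on `Fr g × E` which are smooth along plots near a point

`PSm H p`: `H : Fr g × E → W` is smooth along every plot through `p`. `jc_of_psm`: if this holds at
all the points of the open set `S`, then `H` is a family of smooth functions on `E` with jointly
continuous derivatives (`JC`). (helper747)
-/

open scoped Manifold ContDiff ENNReal Topology
open Bundle MeasureTheory Set Filter Topology

noncomputable section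

set_option maxSynthPendingDepth 3
set_option linter.unusedSectionVars false

namespace Vale.Agent.P207.N3.H747

open Vale.Agent.P255 (RMetric coefIn Gam Riem IsGeo Metric Npc ExpSys toMetric geo expg cc trans
  IsGeodesic coefL chris chrisB IsMetricOn covD)
open Vale.Agent.P207.Q Vale.Agent.P207.Q.Fl

variable {n : ℕ} {M : Type} [TopologicalSpace M] [ChartedSpace (EV n) M]
  [IsManifold 𝓘(ℝ, EV n) ∞ M] {g : RMetric (EV n) M} [Nonempty (Fr g)] [NeZero n]

variable {E : Type} [NormedAddCommGroup E] [NormedSpace ℝ E] [FiniteDimensional ℝ E]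
  {W W' W'' : Type} [NormedAddCommGroup W] [NormedSpace ℝ W] [NormedAddCommGroup W']
  [NormedSpace ℝ W'] [NormedAddCommGroup W''] [NormedSpace ℝ W'']

/-- the plots of `Fr g × E` -/
abbrev PAt {V : Type} [NormedAddCommGroup V] [NormedSpace ℝ V] [FiniteDimensional ℝ V]
    (u : V → Fr g × E) (v : V) : Prop :=
  ((frSys g).dif.prod (Dif.lin E)).At u v

theorem PAt.continuousAt {V : Type} [NormedAddCommGroup V] [NormedSpace ℝ V]
    [FiniteDimensional ℝ V] {u : V → Fr g × E} {v : V} (h : PAt u v) : ContinuousAt u v :=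
  ((frSys g).at_cont h.1).prodMk (Sm.continuousAt (g := fun w => (u w).2) h.2)

/-- `H` is smooth along the plots through `p` -/
def PSm (H : Fr g × E → W) (p : Fr g × E) : Prop :=
  ∀ (V : Type) [NormedAddCommGroup V] [NormedSpace ℝ V] [FiniteDimensional ℝ V]
    (u : V → Fr g × E) (v : V), u v = p → PAt u v → Sm (fun w => H (u w)) v

theorem PSm.sm {H : Fr g × E → W} {V : Type} [NormedAddCommGroup V] [NormedSpace ℝ V]
    [FiniteDimensional ℝ V] {u : V → Fr g × E} {v : V} (h : PSm H (u v)) (hu : PAt u v) :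
    Sm (fun w => H (u w)) v := h V u v rfl hu

theorem PSm.congr {H H' : Fr g × E → W} {p : Fr g × E} (h : PSm H p) (he : H' =ᶠ[𝓝 p] H) :
    PSm H' p := by
  intro V _ _ _ u v huv hu
  refine (h V u v huv hu).congr ?_
  have h1 : Tendsto u (𝓝 v) (𝓝 p) := huv ▸ hu.continuousAt
  exact (h1.eventually he).mono fun w hw => hw.symm

theorem psm_const (c : W) (p : Fr g × E) : PSm (fun _ => c) p :=
  fun _ _ _ _ _ v _ _ => Sm.const c v

theorem psm_snd (p : Fr g × E) : PSm (fun q : Fr g × E => q.2) p :=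
  fun _ _ _ _ _ _ _ hu => hu.2

theorem PSm.comp {H : Fr g × E → W} {p : Fr g × E} (h : PSm H p) {F : W → W'}
    (hF : Sm F (H p)) : PSm (fun q => F (H q)) p := by
  intro V _ _ _ u v huv hu
  have h1 := h V u v huv hu
  have h2 : Sm F ((fun w => H (u w)) v) := by
    simp only [huv]
    exact hF
  exact Sm.comp (f := F) (g := fun w => H (u w)) h2 h1

theorem PSm.clm (L : W →L[ℝ] W') {H : Fr g × E → W} {p : Fr g × E} (h : PSm H p) :
    PSm (fun q => L (H q)) p := h.comp (Sm.clm L _)

theorem PSm.prodMk {H : Fr g × E → W} {H' : Fr g × E → W'} {p : Fr g × E} (h : PSm H p)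
    (h' : PSm H' p) : PSm (fun q => (H q, H' q)) p :=
  fun V _ _ _ u v huv hu => (h V u v huv hu).prodMk (h' V u v huv hu)

theorem PSm.fst {H : Fr g × E → W × W'} {p : Fr g × E} (h : PSm H p) :
    PSm (fun q => (H q).1) p := fun V _ _ _ u v huv hu => (h V u v huv hu).fst

theorem PSm.snd {H : Fr g × E → W × W'} {p : Fr g × E} (h : PSm H p) :
    PSm (fun q => (H q).2) p := fun V _ _ _ u v huv hu => (h V u v huv hu).snd

theorem PSm.add {H H' : Fr g × E → W} {p : Fr g × E} (h : PSm H p) (h' : PSm H' p) :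
    PSm (fun q => H q + H' q) p :=
  fun V _ _ _ u v huv hu => (h V u v huv hu).add (h' V u v huv hu)

theorem PSm.sub {H H' : Fr g × E → W} {p : Fr g × E} (h : PSm H p) (h' : PSm H' p) :
    PSm (fun q => H q - H' q) p :=
  fun V _ _ _ u v huv hu => (h V u v huv hu).sub (h' V u v huv hu)

theorem PSm.neg {H : Fr g × E → W} {p : Fr g × E} (h : PSm H p) : PSm (fun q => -H q) p :=
  fun V _ _ _ u v huv hu => (h V u v huv hu).neg

theorem PSm.bilin (B : W →L[ℝ] W' →L[ℝ] W'') {H : Fr g × E → W} {H' : Fr g × E → W'}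
    {p : Fr g × E} (h : PSm H p) (h' : PSm H' p) : PSm (fun q => B (H q) (H' q)) p :=
  (h.prodMk h').comp (F := fun q : W × W' => B q.1 q.2)
    (Sm.of_contDiff (B.isBoundedBilinearMap.contDiff) _)

theorem PSm.clm_apply {A : Fr g × E → W →L[ℝ] W'} {H : Fr g × E → W}
    {p : Fr g × E} (h : PSm A p) (h' : PSm H p) : PSm (fun q => A q (H q)) p :=
  h.bilin (ContinuousLinearMap.id ℝ (W →L[ℝ] W')) h'

theorem PSm.clm_comp {A : Fr g × E → W' →L[ℝ] W''} {B : Fr g × E → W →L[ℝ] W'}
    {p : Fr g × E} (h : PSm A p) (h' : PSm B p) : PSm (fun q => (A q).comp (B q)) p :=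
  h.bilin (ContinuousLinearMap.compL ℝ W W' W'') h'

theorem PSm.smul {c : Fr g × E → ℝ} {H : Fr g × E → W}
    {p : Fr g × E} (h : PSm c p) (h' : PSm H p) : PSm (fun q => c q • H q) p :=
  h.bilin (ContinuousLinearMap.lsmul ℝ ℝ) h'

theorem PSm.pi {ι : Type} [Fintype ι] {H : Fr g × E → ι → W} {p : Fr g × E}
    (h : ∀ i, PSm (fun q => H q i) p) : PSm H p :=
  fun V _ _ _ u v huv hu => Sm.pi fun i => h i V u v huv hu

theorem PSm.apply {ι : Type} [Fintype ι] {H : Fr g × E → ι → W} {p : Fr g × E}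
    (h : PSm H p) (i : ι) : PSm (fun q => H q i) p :=
  fun V _ _ _ u v huv hu => (h V u v huv hu).apply i

theorem PSm.sum {κ : Type*} {s : Finset κ} {H : κ → Fr g × E → W} {p : Fr g × E}
    (h : ∀ i ∈ s, PSm (H i) p) : PSm (fun q => ∑ i ∈ s, H i q) p :=
  fun V _ _ _ u v huv hu => Sm.sum fun i hi => h i hi V u v huv hu

/-- the derivative in the linear variable -/
theorem PSm.fderiv {H : Fr g × E → W} {p : Fr g × E} (h : PSm H p) :
    PSm (fun q => _root_.fderiv ℝ (fun e => H (q.1, e)) q.2) p := by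
  intro V _ _ _ u v huv hu
  have h0 : ((frSys g).dif.prod (Dif.lin E)).At (fun q : V × E => ((u q.1).1, q.2))
      (v, (u v).2) := by
    refine ⟨?_, Sm.of_contDiff contDiff_snd _⟩
    exact (frSys g).dif.comp (u := fun w => (u w).1) (g := Prod.fst) (x := ((v, (u v).2) : V × E))
      hu.1 (Sm.of_contDiff contDiff_fst _)
  have h1 := h (V × E) (fun q : V × E => ((u q.1).1, q.2)) (v, (u v).2) (by rw [← huv]) h0
  set Φ : V × E → W := fun q => H ((u q.1).1, q.2) with hΦ
  have h2 : Sm Φ (v, (u v).2) := h1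
  have h3 : Sm (fun w => ((w, (u w).2) : V × E)) v := (Sm.id' v).prodMk hu.2
  have h4 : Sm (_root_.fderiv ℝ Φ) (v, (u v).2) := h2.fderiv
  have h5 : Sm (fun w => _root_.fderiv ℝ Φ (w, (u w).2)) v :=
    Sm.comp (f := _root_.fderiv ℝ Φ) (g := fun w => ((w, (u w).2) : V × E)) h4 h3
  have h6 : Sm (fun w => (_root_.fderiv ℝ Φ (w, (u w).2)).comp (ContinuousLinearMap.inr ℝ V E)) v :=
    Sm.comp' (f := fun L : V × E →L[ℝ] W => L.comp (ContinuousLinearMap.inr ℝ V E))
      (Sm.of_contDiff (by fun_prop) _) h5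
  refine h6.congr ?_
  have h7 : ∀ᶠ w in 𝓝 v, Sm Φ (w, (u w).2) :=
    (h3.continuousAt (x := v)).eventually (h2.eventually)
  filter_upwards [h7] with w hw
  have h8 : HasFDerivAt Φ (_root_.fderiv ℝ Φ (w, (u w).2)) (w, (u w).2) :=
    hw.differentiableAt.hasFDerivAt
  have h9 : HasFDerivAt (fun e : E => ((w, e) : V × E)) (ContinuousLinearMap.inr ℝ V E) (u w).2 := by
    have := (hasFDerivAt_const (w : V) ((u w).2 : E)).prodMk (hasFDerivAt_id (𝕜 := ℝ) (u w).2)
    exact this
  have h10 : HasFDerivAt (fun e : E => Φ (w, e))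
      ((_root_.fderiv ℝ Φ (w, (u w).2)).comp (ContinuousLinearMap.inr ℝ V E)) (u w).2 :=
    HasFDerivAt.comp (g := Φ) (f := fun e : E => ((w, e) : V × E)) (u w).2 h8 h9
  exact h10.fderiv.symm

/-- the retraction plot -/
def retr (g : RMetric (EV n) M) [Nonempty (Fr g)] (a : M) (y : St (Fin n) n) : Fr g :=
  invF g a (gsSt ((mt g).coef a) y)

theorem eventually_retr (f : Fr g) :
    ∀ᶠ q in 𝓝 f, retr g f.pt (chF f.pt q.1) = q := by
  have hf : f.pt ∈ (chartAt (EV n) f.pt).source := mem_chart_source _ _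
  filter_upwards [((chartAt (EV n) f.pt).open_source.preimage Fr.continuous_pt).mem_nhds hf]
    with q hq
  exact retr_chF f.pt q hq

/-- **smooth along plots implies jointly continuous derivatives** -/
theorem jc_of_psm {H : Fr g × E → W} {S : Set (Fr g × E)} (hS : IsOpen S)
    (h : ∀ p ∈ S, PSm H p) : JC (fun x e => H (x, e)) S := by
  refine JC.of_local hS fun p hp => ?_
  obtain ⟨x, e⟩ := p
  have hf : x.pt ∈ (chartAt (EV n) x.pt).source := mem_chart_source _ _
  set y0 : St (Fin n) n := chF x.pt x.1 with hy0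
  have hr0 : retr g x.pt y0 = x := retr_chF x.pt x hf
  have h1 : PAt (fun q : St (Fin n) n × E => (retr g x.pt q.1, q.2)) (y0, e) := by
    refine ⟨?_, Sm.of_contDiff contDiff_snd _⟩
    exact (frSys g).dif.comp (u := retr g x.pt) (g := Prod.fst)
      (x := ((y0, e) : St (Fin n) n × E)) (at_retr x.pt (mem_gsDom_chF x.pt x hf))
      (Sm.of_contDiff contDiff_fst _)
  have h2 : Sm (fun q : St (Fin n) n × E => H (retr g x.pt q.1, q.2)) (y0, e) :=
    h (x, e) hp _ _ _ (by simp only [hr0]) h1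
  obtain ⟨N, hN, hNo, hN0⟩ := eventually_nhds_iff.1 h2
  have h3 : JC (fun (y : St (Fin n) n) (e : E) => H (retr g x.pt y, e)) N :=
    JC.of_uncurry hNo fun q hq => (hN q hq).contDiffWithinAt
  obtain ⟨A, hA, hAo, hA0⟩ := eventually_nhds_iff.1
    ((eventually_retr x).and (((chartAt (EV n) x.pt).open_source.preimage
      Fr.continuous_pt).mem_nhds hf))
  have hcA : ContinuousOn (fun q : Fr g => chF x.pt q.1) A := fun q hq =>
    ((continuousAt_chF x.pt (f := q.1) (hA q hq).2).comp
      Fr.continuous_val.continuousAt).continuousWithinAt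
  set T : Set (Fr g × E) := {q | q.1 ∈ A ∧ (chF x.pt q.1.1, q.2) ∈ N} with hT
  have hTo : IsOpen T := by
    have hc : ContinuousOn (fun q : Fr g × E => ((chF x.pt q.1.1, q.2) : St (Fin n) n × E))
        (A ×ˢ univ) :=
      (hcA.comp continuousOn_fst fun q hq => hq.1).prodMk continuousOn_snd
    have := hc.isOpen_inter_preimage (hAo.prod isOpen_univ) hNo
    convert this using 1
    ext q
    simp [hT]
  refine ⟨T, ⟨hA0, hN0⟩, hTo, fun z => ?_, fun k => ?_⟩
  · intro w hw
    have h4 := h3.contDiffAt (p := (chF x.pt z.1, w)) hw.2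
    have h5 : (fun e => H (z, e)) = fun e => H (retr g x.pt (chF x.pt z.1), e) := by
      funext e
      rw [(hA z hw.1).1]
    rw [h5]
    exact h4.contDiffWithinAt
  · have h4 : ContinuousOn (fun q : Fr g × E =>
        iteratedFDeriv ℝ k (fun e => H (retr g x.pt (chF x.pt q.1.1), e)) q.2) T := by
      have hc : ContinuousOn (fun q : Fr g × E => ((chF x.pt q.1.1, q.2) : St (Fin n) n × E)) T :=
        (hcA.comp continuousOn_fst fun q hq => hq.1).prodMk continuousOn_snd
      exact (h3.cont k).comp hc fun q hq => hq.2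
    refine h4.congr fun q hq => ?_
    have h5 : (fun e => H (q.1, e)) = fun e => H (retr g x.pt (chF x.pt q.1.1), e) := by
      funext e
      rw [(hA q.1 hq.1).1]
    simp only [h5]

/-- smooth along plots implies continuous -/
theorem continuousAt_of_psm {H : Fr g × E → W} {p : Fr g × E} {S : Set (Fr g × E)}
    (hS : IsOpen S) (hp : p ∈ S) (h : ∀ p ∈ S, PSm H p) : ContinuousAt H p :=
  (jc_of_psm hS h).continuousOn.continuousAt (hS.mem_nhds hp)

/-- constant plots -/
theorem at_const {V : Type} [NormedAddCommGroup V] [NormedSpace ℝ V] [FiniteDimensional ℝ V]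
    (x : Fr g) (v : V) : (frSys g).dif.At (fun _ : V => x) v :=
  (frSys g).at_of (Eventually.of_forall fun _ => ⟨continuousAt_const, x.pt,
    mem_chart_source (EV n) x.pt, contDiffAt_const⟩)

/-- smooth in the linear variable -/
theorem PSm.slice {H : Fr g × E → W} {p : Fr g × E} (h : PSm H p) :
    Sm (fun e => H (p.1, e)) p.2 :=
  h E (fun e => (p.1, e)) p.2 rfl ⟨at_const p.1 p.2, Sm.id' _⟩

end Vale.Agent.P207.N3.H747
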